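import Mathlib

/-!
# Four-block Littlewood polynomials are not nearly flat

All averages are over roots of unity, where the needed orthogonality is exact.
-/

open Polynomial Finset

namespace Vale.Agent.P110.FourBlock

/-- A polynomial of degree less than `L` from a coefficient sequence. -/
noncomputable def blk (L : ℕ) (e : ℕ → ℝ) : ℂ[X] := ∑ i ∈ range L, C (e i : ℂ) * X ^ i

/-- The reversed block. -/
noncomputable def rev (L : ℕ) (e : ℕ → ℝ) : ℂ[X] :=
  ∑ i ∈ range L, C (e i : ℂ) * X ^ (L - 1 - i)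

theorem eval_blk (L : ℕ) (e : ℕ → ℝ) (z : ℂ) :
    (blk L e).eval z = ∑ i ∈ range L, (e i : ℂ) * z ^ i := by
  simp [blk, eval_finsetSum]

theorem coeff_blk (L : ℕ) (e : ℕ → ℝ) (n : ℕ) :
    (blk L e).coeff n = if n < L then (e n : ℂ) else 0 := by
  simp [blk]

theorem natDegree_blk_le (L : ℕ) (e : ℕ → ℝ) : (blk L e).natDegree ≤ L - 1 := by
  refine natDegree_sum_le_of_forall_le _ _ fun i hi => ?_
  refine (natDegree_C_mul_X_pow_le _ _).trans ?_
  have := mem_range.1 hi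
  omega

theorem natDegree_rev_le (L : ℕ) (e : ℕ → ℝ) : (rev L e).natDegree ≤ L - 1 :=
  natDegree_sum_le_of_forall_le _ _ fun _ _ => (natDegree_C_mul_X_pow_le _ _).trans (Nat.sub_le _ _)

/-- On the unit circle the reversed block gives the complex conjugate. -/
theorem conj_eval_blk {L : ℕ} (e : ℕ → ℝ) {z : ℂ} (hz : z * starRingEnd ℂ z = 1) :
    starRingEnd ℂ ((blk L e).eval z) * z ^ (L - 1) = (rev L e).eval z := by
  simp only [eval_blk, rev, eval_finsetSum, eval_mul, eval_C, eval_pow, eval_X, map_sum,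
    map_mul, map_pow, Complex.conj_ofReal, sum_mul]
  refine sum_congr rfl fun i hi => ?_
  have hi' : i + (L - 1 - i) = L - 1 := by have := mem_range.1 hi; omega
  calc (e i : ℂ) * starRingEnd ℂ z ^ i * z ^ (L - 1)
      = (e i : ℂ) * ((z * starRingEnd ℂ z) ^ i * z ^ (L - 1 - i)) := by
        rw [← hi', pow_add, mul_pow]; simp only [Nat.add_sub_cancel_left]; ring
    _ = _ := by rw [hz, one_pow, one_mul]

variable {M : ℕ} {ω : ℂ}

theorem circle_of_root (hω : IsPrimitiveRoot ω M) (hM : M ≠ 0) (k : ℕ) :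
    ω ^ k * starRingEnd ℂ (ω ^ k) = 1 := by
  rw [Complex.mul_conj', norm_pow, Complex.norm_eq_one_of_pow_eq_one hω.pow_eq_one hM]
  simp

theorem root_sum (hω : IsPrimitiveRoot ω M) (n : ℕ) :
    ∑ k ∈ range M, (ω ^ k) ^ n = if M ∣ n then (M : ℂ) else 0 := by
  split_ifs with h
  · rw [sum_congr rfl fun k _ => ?_, sum_const, card_range, nsmul_one]
    rw [← pow_mul, mul_comm, pow_mul, (hω.pow_eq_one_iff_dvd n).mpr h, one_pow]
  · rw [sum_congr rfl fun k _ => (pow_right_comm ω k n)]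
    have h1 : ω ^ n ≠ 1 := fun h' => h ((hω.pow_eq_one_iff_dvd n).mp h')
    rw [geom_sum_eq h1, pow_right_comm, hω.pow_eq_one, one_pow, sub_self, zero_div]

/-- Parseval on roots of unity, on any rotated grid. -/
theorem parseval (hω : IsPrimitiveRoot ω M) (hM : M ≠ 0) {Q : ℂ[X]} (hQ : Q.natDegree < M)
    {u : ℂ} (hu : ‖u‖ = 1) :
    ∑ k ∈ range M, ‖Q.eval (u * ω ^ k)‖ ^ 2 = M * ∑ i ∈ range M, ‖Q.coeff i‖ ^ 2 := by
  have hc : starRingEnd ℂ ω = ω ^ (M - 1) := by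
    have h1 := circle_of_root hω hM 1
    rw [pow_one] at h1
    have h2 : ω * ω ^ (M - 1) = 1 := by
      rw [← pow_succ', Nat.sub_add_cancel (Nat.one_le_iff_ne_zero.2 hM), hω.pow_eq_one]
    exact mul_left_cancel₀ (hω.ne_zero hM) (h1.trans h2.symm)
  have hexp : ∀ k, Q.eval (u * ω ^ k) * starRingEnd ℂ (Q.eval (u * ω ^ k)) =
      ∑ i ∈ range M, ∑ j ∈ range M, Q.coeff i * starRingEnd ℂ (Q.coeff j) * u ^ i *
        starRingEnd ℂ u ^ j * (ω ^ k) ^ (i + (M - 1) * j) := by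
    intro k
    rw [Polynomial.eval_eq_sum_range' hQ, map_sum, sum_mul_sum]
    refine sum_congr rfl fun i _ => sum_congr rfl fun j _ => ?_
    rw [map_mul, map_pow, map_mul, map_pow, hc]
    ring
  have key : ∑ k ∈ range M, Q.eval (u * ω ^ k) * starRingEnd ℂ (Q.eval (u * ω ^ k)) =
      (M : ℂ) * ∑ i ∈ range M, Q.coeff i * starRingEnd ℂ (Q.coeff i) := by
    rw [sum_congr rfl fun k _ => hexp k, sum_comm, mul_sum]
    refine sum_congr rfl fun i hi => ?_
    rw [sum_comm, sum_eq_single i]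
    · have huu : u * starRingEnd ℂ u = 1 := by rw [Complex.mul_conj', hu]; simp
      have hdiv : M ∣ i + (M - 1) * i := by
        obtain ⟨m, rfl⟩ := Nat.exists_eq_succ_of_ne_zero hM
        exact ⟨i, by simp only [Nat.succ_eq_add_one, Nat.add_sub_cancel]; ring⟩
      rw [← mul_sum, root_sum hω, if_pos hdiv, mul_assoc _ (u ^ i), ← mul_pow, huu, one_pow,
        mul_one, mul_comm]
    · intro j hj hji
      rw [← mul_sum, root_sum hω, if_neg, mul_zero]
      rintro ⟨t, ht⟩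
      have hj' := mem_range.1 hj
      have hi' := mem_range.1 hi
      obtain ⟨m, rfl⟩ := Nat.exists_eq_succ_of_ne_zero hM
      simp only [Nat.succ_eq_add_one, Nat.add_sub_cancel] at *
      have : i + (m + 1) * j = j + (m + 1) * t := by rw [← ht]; ring
      have h3 := congrArg (· % (m + 1)) this
      simp only [Nat.add_mul_mod_self_left, Nat.mod_eq_of_lt hi', Nat.mod_eq_of_lt hj'] at h3
      exact hji h3.symm
    · exact fun h => absurd hi h
  simp only [Complex.mul_conj'] at key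
  exact_mod_cast key

/-- The mean of the square of a low degree polynomial without constant term is zero. -/
theorem sum_sq_eq_zero (hω : IsPrimitiveRoot ω M) {Q : ℂ[X]} (hQ : 2 * Q.natDegree < M)
    (h0 : Q.coeff 0 = 0) : ∑ k ∈ range M, Q.eval (ω ^ k) ^ 2 = 0 := by
  have hd : (Q * Q).natDegree < M := natDegree_mul_le.trans_lt (by omega)
  simp only [sq, ← eval_mul, Polynomial.eval_eq_sum_range' hd]
  rw [sum_comm]
  refine sum_eq_zero fun n hn => ?_
  rw [← mul_sum, root_sum hω]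
  split_ifs with h
  · rw [Nat.eq_zero_of_dvd_of_lt h (mem_range.1 hn), mul_coeff_zero, h0, zero_mul, zero_mul]
  · rw [mul_zero]

theorem sum_re_sq (hω : IsPrimitiveRoot ω M) {Q : ℂ[X]} (hQ : 2 * Q.natDegree < M)
    (h0 : Q.coeff 0 = 0) :
    2 * ∑ k ∈ range M, (Q.eval (ω ^ k)).re ^ 2 = ∑ k ∈ range M, ‖Q.eval (ω ^ k)‖ ^ 2 := by
  have h := congrArg Complex.re (sum_sq_eq_zero hω hQ h0)
  rw [Complex.re_sum, Complex.zero_re] at h
  simp only [sq, Complex.mul_re] at h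
  rw [sum_sub_distrib] at h
  simp only [← Complex.normSq_eq_norm_sq, Complex.normSq_apply, sum_add_distrib]
  simp only [sq]
  linarith

/-- Mean and fourth moment of a block on a grid of at least twice its length. -/
theorem block_moments (hω : IsPrimitiveRoot ω M) {L : ℕ} (hL : 0 < L) (hM : 2 * L ≤ M)
    {e : ℕ → ℝ} (he : ∀ i < L, e i = 1 ∨ e i = -1) {u : ℂ} (hu : ‖u‖ = 1) :
    ∑ k ∈ range M, ‖(blk L e).eval (u * ω ^ k)‖ ^ 2 = M * L ∧
    ∑ k ∈ range M, (‖(blk L e).eval (u * ω ^ k)‖ ^ 2 - L) ^ 2 =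
      M * ((∑ i ∈ range (2 * L), ‖(blk L e * blk L e).coeff i‖ ^ 2) - (L : ℝ) ^ 2) := by
  have hM0 : M ≠ 0 := by omega
  have hd := natDegree_blk_le L e
  have h2d : (blk L e * blk L e).natDegree < 2 * L := natDegree_mul_le.trans_lt (by omega)
  have h1 : ∑ k ∈ range M, ‖(blk L e).eval (u * ω ^ k)‖ ^ 2 = (M : ℝ) * L := by
    rw [parseval hω hM0 (by omega) hu]
    congr 1
    rw [← sum_subset (range_subset_range.2 (show L ≤ M by omega))]
    · rw [sum_congr rfl fun i hi => ?_, sum_const, card_range, nsmul_one]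
      rw [coeff_blk, if_pos (mem_range.1 hi), Complex.norm_real]
      rcases he i (mem_range.1 hi) with h | h <;> simp [h]
    · intro i _ hi
      rw [mem_range] at hi
      simp [coeff_blk, hi]
  refine ⟨h1, ?_⟩
  have h4 := parseval hω hM0 (h2d.trans_le hM) hu
  have hsub : ∑ i ∈ range M, ‖(blk L e * blk L e).coeff i‖ ^ 2 =
      ∑ i ∈ range (2 * L), ‖(blk L e * blk L e).coeff i‖ ^ 2 :=
    (sum_subset (range_subset_range.2 hM) fun i _ hi => by
      rw [mem_range] at hi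
      rw [coeff_eq_zero_of_natDegree_lt (show (blk L e * blk L e).natDegree < i by omega)]
      simp).symm
  rw [hsub] at h4
  simp only [eval_mul, norm_mul, mul_pow] at h4
  have hpt : ∀ k, (‖(blk L e).eval (u * ω ^ k)‖ ^ 2 - (L : ℝ)) ^ 2 =
      ‖(blk L e).eval (u * ω ^ k)‖ ^ 2 * ‖(blk L e).eval (u * ω ^ k)‖ ^ 2
        - 2 * L * ‖(blk L e).eval (u * ω ^ k)‖ ^ 2 + (L : ℝ) ^ 2 := fun k => by ring
  simp only [hpt, sum_add_distrib, sum_sub_distrib, ← mul_sum, h1, h4, sum_const, card_range,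
    nsmul_eq_mul]
  ring

/-- The fourth moment on the coarse grid is the fourth moment on the fine grid. -/
theorem coarse_bound {L : ℕ} (hL : 0 < L) {e : ℕ → ℝ} (he : ∀ i < L, e i = 1 ∨ e i = -1)
    {ω ζ : ℂ} (hω : IsPrimitiveRoot ω (8 * L)) (hζ : IsPrimitiveRoot ζ (2 * L))
    {u : ℂ} (hu : ‖u‖ = 1)
    (h : ∀ k, |‖(blk L e).eval (u * ζ ^ k)‖ ^ 2 - L| < (L : ℝ) / 4) :
    ∑ k ∈ range (8 * L), (‖(blk L e).eval (ω ^ k)‖ ^ 2 - L) ^ 2 <
      (8 * L : ℝ) * ((L : ℝ) ^ 2 / 16) := by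
  have hL' : (0 : ℝ) < L := Nat.cast_pos.2 hL
  have h1 := (block_moments hζ hL le_rfl he hu).2
  have h2 := (block_moments hω hL (show 2 * L ≤ 8 * L by omega) he (u := 1) norm_one).2
  simp only [one_mul] at h2
  have h3 : ∑ k ∈ range (2 * L), (‖(blk L e).eval (u * ζ ^ k)‖ ^ 2 - (L : ℝ)) ^ 2 <
      ∑ k ∈ range (2 * L), ((L : ℝ) ^ 2 / 16) := by
    refine sum_lt_sum_of_nonempty (nonempty_range_iff.2 (by omega)) fun k _ => ?_
    have h4 := abs_lt.1 (h k)
    nlinarith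
  rw [h1, sum_const, card_range, nsmul_eq_mul] at h3
  push_cast at h3 h2
  rw [h2]
  nlinarith

theorem upper_point {n x y g a p : ℝ} (ha : a * a = 1) (hp : |p - 4 * n| < n)
    (h : p = 2 * (x + y) + 2 * a * g) :
    4 * g ^ 2 ≤ 2 * n ^ 2 + (16 * (x - n) ^ 2 + 16 * (y - n) ^ 2) := by
  have h4 : (p - 4 * n) ^ 2 ≤ n ^ 2 := by
    have := abs_lt.1 hp
    nlinarith
  have h5 : 2 * a * g = (p - 4 * n) - 2 * (x - n) - 2 * (y - n) := by linarith
  have h6 : 4 * g ^ 2 = ((p - 4 * n) - 2 * (x - n) - 2 * (y - n)) ^ 2 := by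
    rw [← h5]
    linear_combination (-4 * g ^ 2) * ha
  rw [h6]
  nlinarith [sq_nonneg ((p - 4 * n) + 4 * (x - n)), sq_nonneg ((p - 4 * n) + 4 * (y - n)),
    sq_nonneg ((x - n) - (y - n))]

/-- The value of the four block polynomial with blocks `C, D, aC, -aD`. -/
noncomputable def four (L : ℕ) (c d : ℕ → ℝ) (a : ℝ) (z : ℂ) : ℂ :=
  (blk L c).eval z * (1 + a * z ^ (2 * L)) + z ^ L * (blk L d).eval z * (1 - a * z ^ (2 * L))

/-- Analytic cross term of `C` and `z^L D`. -/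
noncomputable def Hp (L : ℕ) (c d : ℕ → ℝ) : ℂ[X] := X * (blk L d * rev L c)

/-- Analytic cross term of the two halves. -/
noncomputable def Gp (L : ℕ) (c d : ℕ → ℝ) : ℂ[X] :=
  X * ((blk L c - X ^ L * blk L d) * (X ^ L * rev L c + rev L d))

theorem natDegree_Hp {L : ℕ} (hL : 0 < L) (c d : ℕ → ℝ) : (Hp L c d).natDegree < 4 * L := by
  have h1 : (Hp L c d).natDegree ≤ (X : ℂ[X]).natDegree + _ := natDegree_mul_le
  have h2 : (blk L d * rev L c).natDegree ≤ _ := natDegree_mul_le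
  have := natDegree_blk_le L d
  have := natDegree_rev_le L c
  rw [natDegree_X] at h1
  omega

theorem natDegree_Gp {L : ℕ} (hL : 0 < L) (c d : ℕ → ℝ) : (Gp L c d).natDegree < 4 * L := by
  have h1 : (Gp L c d).natDegree ≤ (X : ℂ[X]).natDegree + _ := natDegree_mul_le
  have h2 : ((blk L c - X ^ L * blk L d) * (X ^ L * rev L c + rev L d)).natDegree ≤ _ :=
    natDegree_mul_le
  have h3 : (blk L c - X ^ L * blk L d).natDegree ≤ _ := natDegree_sub_le _ _
  have h4 : (X ^ L * blk L d).natDegree ≤ _ := natDegree_mul_le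
  have h5 : (X ^ L * rev L c + rev L d).natDegree ≤ _ := natDegree_add_le _ _
  have h6 : (X ^ L * rev L c).natDegree ≤ _ := natDegree_mul_le
  have := natDegree_blk_le L c
  have := natDegree_blk_le L d
  have := natDegree_rev_le L c
  have := natDegree_rev_le L d
  rw [natDegree_X] at h1
  rw [natDegree_X_pow] at h4 h6
  omega

theorem pointwise_Hp {L : ℕ} (hL : 0 < L) (c d : ℕ → ℝ) {z : ℂ} (hz : z * starRingEnd ℂ z = 1) :
    (Hp L c d).eval z = starRingEnd ℂ ((blk L c).eval z) * (z ^ L * (blk L d).eval z) := by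
  simp only [Hp, eval_mul, eval_X]
  rw [← conj_eval_blk c hz]
  calc _ = starRingEnd ℂ ((blk L c).eval z) * ((z * z ^ (L - 1)) * (blk L d).eval z) := by ring
    _ = _ := by rw [← pow_succ', Nat.sub_add_cancel hL]

theorem pointwise_Gp {L : ℕ} (hL : 0 < L) (c d : ℕ → ℝ) {z : ℂ} (hz : z * starRingEnd ℂ z = 1) :
    (Gp L c d).eval z = starRingEnd ℂ ((blk L c).eval z + z ^ L * (blk L d).eval z) *
      (z ^ L * z ^ L * ((blk L c).eval z - z ^ L * (blk L d).eval z)) := by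
  have hzL : z ^ L * starRingEnd ℂ (z ^ L) = 1 := by rw [map_pow, ← mul_pow, hz, one_pow]
  have hXL : z * z ^ (L - 1) = z ^ L := by rw [← pow_succ', Nat.sub_add_cancel hL]
  simp only [Gp, eval_mul, eval_X, eval_add, eval_sub, eval_pow]
  rw [← conj_eval_blk c hz, ← conj_eval_blk d hz, map_add, map_mul]
  linear_combination ((blk L c).eval z - z ^ L * (blk L d).eval z) *
    (z ^ L * starRingEnd ℂ ((blk L c).eval z) + starRingEnd ℂ ((blk L d).eval z)) * hXL -
    z ^ L * ((blk L c).eval z - z ^ L * (blk L d).eval z) *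
      starRingEnd ℂ ((blk L d).eval z) * hzL

theorem norms_identity {Cz Dz w : ℂ} (hw : Complex.normSq w = 1) {a : ℝ} (ha : a * a = 1) :
    Complex.normSq (starRingEnd ℂ (Cz + w * Dz) * (w * w * (Cz - w * Dz))) =
      (Complex.normSq Cz + Complex.normSq Dz) ^ 2 -
        4 * (starRingEnd ℂ Cz * (w * Dz)).re ^ 2 ∧
    Complex.normSq ((Cz + w * Dz) + a * (w * w * (Cz - w * Dz))) =
      2 * (Complex.normSq Cz + Complex.normSq Dz) +
        2 * a * (starRingEnd ℂ (Cz + w * Dz) * (w * w * (Cz - w * Dz))).re := by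
  have hre : (Cz * starRingEnd ℂ (w * Dz)).re = (starRingEnd ℂ Cz * (w * Dz)).re := by
    simp [Complex.mul_re, Complex.mul_im]
    ring
  have hn1 : Complex.normSq (Cz + w * Dz) =
      Complex.normSq Cz + Complex.normSq Dz + 2 * (starRingEnd ℂ Cz * (w * Dz)).re := by
    rw [Complex.normSq_add, hre, Complex.normSq_mul, hw, one_mul]
  have hn2 : Complex.normSq (Cz - w * Dz) =
      Complex.normSq Cz + Complex.normSq Dz - 2 * (starRingEnd ℂ Cz * (w * Dz)).re := by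
    rw [Complex.normSq_sub, hre, Complex.normSq_mul, hw, one_mul]
  constructor
  · rw [Complex.normSq_mul, Complex.normSq_conj, Complex.normSq_mul, Complex.normSq_mul, hw,
      one_mul, one_mul, hn1, hn2]
    ring
  · generalize hA : Cz + w * Dz = A at hn1 ⊢
    generalize hB : w * w * (Cz - w * Dz) = B
    have hnB : Complex.normSq B = Complex.normSq (Cz - w * Dz) := by
      rw [← hB, Complex.normSq_mul, Complex.normSq_mul, hw, one_mul, one_mul]
    have hcross : (A * starRingEnd ℂ ((a : ℂ) * B)).re = a * (starRingEnd ℂ A * B).re := by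
      simp [Complex.mul_re, Complex.mul_im]
      ring
    rw [Complex.normSq_add, hcross, Complex.normSq_mul, Complex.normSq_ofReal, ha, one_mul, hnB,
      hn1, hn2]
    ring

theorem pointwise {L : ℕ} (hL : 0 < L) (c d : ℕ → ℝ) {a : ℝ} (ha : a * a = 1) {z : ℂ}
    (hz : z * starRingEnd ℂ z = 1) :
    ‖(Hp L c d).eval z‖ ^ 2 = ‖(blk L c).eval z‖ ^ 2 * ‖(blk L d).eval z‖ ^ 2 ∧
    ‖(Gp L c d).eval z‖ ^ 2 =
      (‖(blk L c).eval z‖ ^ 2 + ‖(blk L d).eval z‖ ^ 2) ^ 2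
        - 4 * ((Hp L c d).eval z).re ^ 2 ∧
    ‖four L c d a z‖ ^ 2 = 2 * (‖(blk L c).eval z‖ ^ 2 + ‖(blk L d).eval z‖ ^ 2)
        + 2 * a * ((Gp L c d).eval z).re := by
  have hw : Complex.normSq (z ^ L) = 1 := by
    rw [Complex.mul_conj] at hz
    rw [map_pow, Complex.ofReal_eq_one.1 hz, one_pow]
  obtain ⟨h1, h2⟩ := norms_identity (Cz := (blk L c).eval z) (Dz := (blk L d).eval z) hw ha
  simp only [← Complex.normSq_eq_norm_sq]
  rw [pointwise_Hp hL c d hz, pointwise_Gp hL c d hz]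
  refine ⟨?_, h1, ?_⟩
  · rw [Complex.normSq_mul, Complex.normSq_conj, Complex.normSq_mul, hw, one_mul]
  · rw [← h2, four, show 2 * L = L + L by ring, pow_add]
    congr 1
    ring

/-- Four blocks `C, D, aC, -aD`: the squared modulus is not nearly constant. -/
theorem exists_far {L : ℕ} (hL : 0 < L) {c d : ℕ → ℝ} (hc : ∀ i < L, c i = 1 ∨ c i = -1)
    (hd : ∀ i < L, d i = 1 ∨ d i = -1) {a : ℝ} (ha : a = 1 ∨ a = -1) :
    ∃ z : ℂ, ‖z‖ = 1 ∧ (L : ℝ) ≤ |‖four L c d a z‖ ^ 2 - 4 * L| := by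
  by_contra hcon
  push Not at hcon
  have ha2 : a * a = 1 := by rcases ha with h | h <;> simp [h]
  have ha2' : (a : ℂ) * a = 1 := by exact_mod_cast ha2
  have han : ‖(a : ℂ)‖ = 1 := by rcases ha with h | h <;> simp [h]
  obtain ⟨ω, hω⟩ : ∃ ω : ℂ, IsPrimitiveRoot ω (8 * L) :=
    ⟨_, Complex.isPrimitiveRoot_exp (8 * L) (by omega)⟩
  obtain ⟨ζ, hζ⟩ : ∃ ζ : ℂ, IsPrimitiveRoot ζ (2 * L) :=
    ⟨_, Complex.isPrimitiveRoot_exp (2 * L) (by omega)⟩
  obtain ⟨v, hv⟩ : ∃ v : ℂ, v ^ (2 * L) = (a : ℂ) := IsAlgClosed.exists_pow_nat_eq _ (by omega)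
  obtain ⟨v', hv'⟩ : ∃ v : ℂ, v ^ (2 * L) = -(a : ℂ) := IsAlgClosed.exists_pow_nat_eq _ (by omega)
  have hnorm : ∀ (v : ℂ) (r : ℂ), ‖r‖ = 1 → v ^ (2 * L) = r → ‖v‖ = 1 := by
    intro v r hr hv
    have h1 : ‖v‖ ^ (2 * L) = 1 := by rw [← norm_pow, hv, hr]
    exact (pow_eq_one_iff_of_nonneg (norm_nonneg _) (by omega)).mp h1
  have hvn : ‖v‖ = 1 := hnorm v _ han hv
  have hvn' : ‖v'‖ = 1 := hnorm v' _ (by rwa [norm_neg]) hv'
  have hζn : ‖ζ‖ = 1 := Complex.norm_eq_one_of_pow_eq_one hζ.pow_eq_one (by omega)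
  have hpowk : ∀ (u : ℂ) k, (u * ζ ^ k) ^ (2 * L) = u ^ (2 * L) := fun u k => by
    rw [mul_pow, pow_right_comm, hζ.pow_eq_one, one_pow, mul_one]
  have hunit : ∀ (u : ℂ), ‖u‖ = 1 → ∀ k, ‖u * ζ ^ k‖ = 1 := fun u hu k => by
    rw [norm_mul, norm_pow, hu, hζn, one_pow, one_mul]
  -- on each coarse grid one of the two blocks disappears
  have hC := coarse_bound hL hc hω hζ hvn fun k => by
    have h1 := hcon _ (hunit v hvn k)
    have h2 : four L c d a (v * ζ ^ k) = (blk L c).eval (v * ζ ^ k) * 2 := by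
      rw [four, hpowk, hv, ha2']
      ring
    rw [h2, norm_mul, Complex.norm_ofNat, mul_pow, abs_lt] at h1
    rw [abs_lt]
    constructor <;> linarith [h1.1, h1.2]
  have hD := coarse_bound hL hd hω hζ hvn' fun k => by
    have h1 := hcon _ (hunit v' hvn' k)
    have h2 : four L c d a (v' * ζ ^ k) =
        (v' * ζ ^ k) ^ L * (blk L d).eval (v' * ζ ^ k) * 2 := by
      rw [four, hpowk, hv', mul_neg, ha2']
      ring
    rw [h2, norm_mul, norm_mul, norm_pow, hunit v' hvn' k, one_pow, one_mul, Complex.norm_ofNat,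
      mul_pow, abs_lt] at h1
    rw [abs_lt]
    constructor <;> linarith [h1.1, h1.2]
  have eH := sum_re_sq hω (Q := Hp L c d) (by have := natDegree_Hp hL c d; omega)
    (by rw [Hp, mul_coeff_zero, coeff_X_zero, zero_mul])
  have eG := sum_re_sq hω (Q := Gp L c d) (by have := natDegree_Gp hL c d; omega)
    (by rw [Gp, mul_coeff_zero, coeff_X_zero, zero_mul])
  have hpt := fun k => pointwise hL c d ha2 (circle_of_root hω (by omega) k)
  have hmC := (block_moments hω hL (show 2 * L ≤ 8 * L by omega) hc (u := 1) norm_one).1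
  have hmD := (block_moments hω hL (show 2 * L ≤ 8 * L by omega) hd (u := 1) norm_one).1
  simp only [one_mul] at hmC hmD
  push_cast at hmC hmD
  have hωn : ∀ k, ‖ω ^ k‖ = 1 := fun k => by
    rw [norm_pow, Complex.norm_eq_one_of_pow_eq_one hω.pow_eq_one (by omega), one_pow]
  -- lower bound for the mean of `(Re G)^2`
  have i1 : 4 * ∑ k ∈ range (8 * L), ‖(Hp L c d).eval (ω ^ k)‖ ^ 2 ≤
      ∑ k ∈ range (8 * L),
        (‖(blk L c).eval (ω ^ k)‖ ^ 2 + ‖(blk L d).eval (ω ^ k)‖ ^ 2) ^ 2 := by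
    rw [mul_sum]
    refine sum_le_sum fun k _ => ?_
    rw [(hpt k).1]
    nlinarith [sq_nonneg (‖(blk L c).eval (ω ^ k)‖ ^ 2 - ‖(blk L d).eval (ω ^ k)‖ ^ 2)]
  have i2 : ∑ k ∈ range (8 * L), ‖(Gp L c d).eval (ω ^ k)‖ ^ 2 =
      ∑ k ∈ range (8 * L),
          (‖(blk L c).eval (ω ^ k)‖ ^ 2 + ‖(blk L d).eval (ω ^ k)‖ ^ 2) ^ 2
        - 4 * ∑ k ∈ range (8 * L), ((Hp L c d).eval (ω ^ k)).re ^ 2 := by
    rw [mul_sum, ← sum_sub_distrib]
    exact sum_congr rfl fun k _ => (hpt k).2.1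
  have i3 : (8 * L : ℝ) * (4 * (L : ℝ) ^ 2) ≤ ∑ k ∈ range (8 * L),
      (‖(blk L c).eval (ω ^ k)‖ ^ 2 + ‖(blk L d).eval (ω ^ k)‖ ^ 2) ^ 2 := by
    have h1 : ∑ k ∈ range (8 * L), ((4 * L : ℝ) *
        (‖(blk L c).eval (ω ^ k)‖ ^ 2 + ‖(blk L d).eval (ω ^ k)‖ ^ 2) - 4 * (L : ℝ) ^ 2) ≤
        ∑ k ∈ range (8 * L),
          (‖(blk L c).eval (ω ^ k)‖ ^ 2 + ‖(blk L d).eval (ω ^ k)‖ ^ 2) ^ 2 :=
      sum_le_sum fun k _ => by
        nlinarith [sq_nonneg (‖(blk L c).eval (ω ^ k)‖ ^ 2 + ‖(blk L d).eval (ω ^ k)‖ ^ 2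
          - 2 * (L : ℝ))]
    rw [sum_sub_distrib, ← mul_sum, sum_add_distrib, hmC, hmD, sum_const, card_range,
      nsmul_eq_mul] at h1
    push_cast at h1
    linarith
  -- upper bound from the assumed flatness and the two coarse grids
  have i4 : 4 * ∑ k ∈ range (8 * L), ((Gp L c d).eval (ω ^ k)).re ^ 2 <
      (8 * L : ℝ) * (4 * (L : ℝ) ^ 2) := by
    have h1 : 4 * ∑ k ∈ range (8 * L), ((Gp L c d).eval (ω ^ k)).re ^ 2 ≤
        ∑ k ∈ range (8 * L), (2 * (L : ℝ) ^ 2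
          + (16 * (‖(blk L c).eval (ω ^ k)‖ ^ 2 - L) ^ 2
            + 16 * (‖(blk L d).eval (ω ^ k)‖ ^ 2 - L) ^ 2)) := by
      rw [mul_sum]
      exact sum_le_sum fun k _ => upper_point ha2 (hcon _ (hωn k)) (hpt k).2.2
    simp only [sum_add_distrib, ← mul_sum, sum_const, card_range,
      nsmul_eq_mul] at h1
    push_cast at h1
    linarith
  linarith

end Vale.Agent.P110.FourBlock
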